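import Mathlib

namespace Vale.Agent.Lib.P249.H16g

open Finset

def sqd {k m : ℕ} (x y : Fin k → Fin m) : ℝ := ∑ j, (((x j : ℕ) : ℝ) - ((y j : ℕ) : ℝ)) ^ 2

private theorem h16_sqd_nonneg {k m : ℕ} (x y : Fin k → Fin m) : 0 ≤ sqd x y :=
  Finset.sum_nonneg fun _ _ => sq_nonneg _

private theorem h16_sqd_self {k m : ℕ} (x : Fin k → Fin m) : sqd x x = 0 := by
  unfold sqd
  simp

/-- A median of a real function on a finite nonempty type. -/
private theorem h16_exists_median {α : Type*} [Fintype α] [Nonempty α] (h : α → ℝ) :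
    ∃ M : ℝ, Fintype.card α ≤ 2 * (univ.filter fun a => h a ≤ M).card ∧
      Fintype.card α ≤ 2 * (univ.filter fun a => M ≤ h a).card := by
  classical
  set S : Finset α :=
    univ.filter fun a => Fintype.card α ≤ 2 * (univ.filter fun b => h b ≤ h a).card with hS
  have hSne : S.Nonempty := by
    obtain ⟨a0, -, ha0⟩ := Finset.exists_max_image univ h univ_nonempty
    refine ⟨a0, ?_⟩
    rw [hS, mem_filter]
    refine ⟨mem_univ _, ?_⟩
    have hall : (univ.filter fun b => h b ≤ h a0) = univ := by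
      apply filter_true_of_mem
      intro b _
      exact ha0 b (mem_univ b)
    rw [hall, card_univ]
    omega
  obtain ⟨a1, ha1S, ha1⟩ := Finset.exists_min_image S h hSne
  refine ⟨h a1, (mem_filter.mp ha1S).2, ?_⟩
  set B : Finset α := univ.filter fun a => h a < h a1 with hB
  have hsplit : (univ.filter fun a => h a1 ≤ h a).card + B.card = Fintype.card α := by
    rw [hB, ← card_univ]
    have h0 := Finset.card_filter_add_card_filter_not (s := (univ : Finset α))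
      (fun a => h a1 ≤ h a)
    simp only [not_le] at h0
    exact h0
  rcases B.eq_empty_or_nonempty with hBe | hBne
  · rw [hBe, card_empty, add_zero] at hsplit
    omega
  · obtain ⟨a2, ha2B, ha2⟩ := Finset.exists_max_image B h hBne
    have ha2lt : h a2 < h a1 := (mem_filter.mp ha2B).2
    have ha2S : a2 ∉ S := fun hmem => absurd (ha1 a2 hmem) (not_le.mpr ha2lt)
    have hcard : ¬ (Fintype.card α ≤ 2 * (univ.filter fun b => h b ≤ h a2).card) := by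
      intro hc
      exact ha2S (mem_filter.mpr ⟨mem_univ _, hc⟩)
    have hsub : B ⊆ univ.filter fun b => h b ≤ h a2 := by
      intro b hb
      exact mem_filter.mpr ⟨mem_univ _, ha2 b hb⟩
    have hle := card_le_card hsub
    omega

private theorem h16_add_rpow_le (x y : ℝ) (hx : 0 ≤ x) (hy : 0 ≤ y) (p : ℝ) (hp : 1 ≤ p) :
    (x + y) ^ p ≤ 2 ^ (p - 1) * (x ^ p + y ^ p) := by
  have h0 := NNReal.rpow_add_le_mul_rpow_add_rpow ⟨x, hx⟩ ⟨y, hy⟩ hp
  exact_mod_cast h0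

private theorem h16_add_pow_le (a b : ℝ) (ha : 0 ≤ a) (hb : 0 ≤ b) (n : ℕ) :
    (a + b) ^ n ≤ 2 ^ n * (a ^ n + b ^ n) := by
  have han : 0 ≤ a ^ n := pow_nonneg ha n
  have hbn : 0 ≤ b ^ n := pow_nonneg hb n
  have h2n : (0 : ℝ) ≤ 2 ^ n := by positivity
  rcases le_total a b with hab | hab
  · calc (a + b) ^ n ≤ (2 * b) ^ n := pow_le_pow_left₀ (by positivity) (by linarith) n
      _ = 2 ^ n * b ^ n := mul_pow _ _ _
      _ ≤ 2 ^ n * (a ^ n + b ^ n) := mul_le_mul_of_nonneg_left (by linarith) h2n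
  · calc (a + b) ^ n ≤ (2 * a) ^ n := pow_le_pow_left₀ (by positivity) (by linarith) n
      _ = 2 ^ n * a ^ n := mul_pow _ _ _
      _ ≤ 2 ^ n * (a ^ n + b ^ n) := mul_le_mul_of_nonneg_left (by linarith) h2n

/-- The squared distance to a nonempty set of grid points. -/
private theorem h16_near {k m : ℕ} (A : Finset (Fin k → Fin m)) (hA : A.Nonempty) :
    ∃ Φ : (Fin k → Fin m) → ℝ, (∀ x ∈ A, Φ x = 0) ∧ (∀ x, 0 ≤ Φ x) ∧
      (∀ x, ∃ a ∈ A, Φ x = sqd x a) ∧ (∀ x, ∀ a ∈ A, Φ x ≤ sqd x a) := by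
  refine ⟨fun x => A.inf' hA (fun a => sqd x a), ?_, ?_, ?_, ?_⟩
  · intro x hx
    apply le_antisymm
    · have h1 : A.inf' hA (fun a => sqd x a) ≤ sqd x x := Finset.inf'_le (fun a => sqd x a) hx
      rw [h16_sqd_self] at h1
      exact h1
    · exact Finset.le_inf' hA _ (fun a _ => h16_sqd_nonneg x a)
  · intro x
    exact Finset.le_inf' hA _ (fun a _ => h16_sqd_nonneg x a)
  · intro x
    obtain ⟨a, ha, hEq⟩ := Finset.exists_mem_eq_inf' hA (fun a => sqd x a)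
    exact ⟨a, ha, hEq⟩
  · intro x a ha
    exact Finset.inf'_le (fun a => sqd x a) ha

theorem conc_grid
    (hmo : ∀ (k m : ℕ), 1 ≤ k → k ≤ m ^ 2 → ∀ (A : Finset (Fin k → Fin m)),
      m ^ k ≤ 2 * A.card → ∀ (Φ : (Fin k → Fin m) → ℝ), (∀ x ∈ A, Φ x = 0) →
      (∀ x, ∃ a, Φ x = sqd x a ∧ ∀ y, Φ y ≤ sqd y a) → ∀ (r : ℕ), 1 ≤ r →
      ∑ x, (Φ x + k) ^ (2 * r) ≤
        ((128 * (r : ℝ) ^ 2 * 9 ^ r) ^ (2 * r) + 4) * (m : ℝ) ^ (4 * r) * (m : ℝ) ^ k)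
    (q : ℝ) (hq : 2 ≤ q) : ∃ C : ℝ, 0 < C ∧ ∀ (k m : ℕ), 1 ≤ k → k ≤ m ^ 2 →
    ∀ (Lam2 : ℝ), 0 ≤ Lam2 → ∀ h : (Fin k → Fin m) → ℝ,
      (∀ x y, (h x - h y) ^ 2 ≤ Lam2 * sqd x y) →
      ∑ x, ∑ y, |h x - h y| ^ q ≤ C * Lam2 ^ (q / 2) * (m : ℝ) ^ q * (m : ℝ) ^ (2 * k) := by
  classical
  have hq0 : 0 < q := by linarith
  obtain ⟨r, hr⟩ : ∃ r : ℕ, r = ⌈q⌉₊ := ⟨_, rfl⟩
  have hqr : q ≤ (r : ℝ) := by
    rw [hr]
    exact Nat.le_ceil q
  have hr1 : 1 ≤ r := by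
    have h1 : (1 : ℝ) ≤ (r : ℝ) := by linarith
    exact_mod_cast h1
  obtain ⟨Kr, hKr⟩ : ∃ Kr : ℝ, Kr = (128 * (r : ℝ) ^ 2 * 9 ^ r) ^ (2 * r) + 4 := ⟨_, rfl⟩
  have hKr0 : 0 < Kr := by
    rw [hKr]
    positivity
  refine ⟨2 ^ q * (1 + 2 ^ (2 * r + 1) * Kr), by positivity, ?_⟩
  intro k m hk hkm Lam2 hLam h hlip
  have hm1 : 1 ≤ m := by
    rcases Nat.eq_zero_or_pos m with h0 | h0
    · subst h0
      simp at hkm
      omega
    · exact h0
  have hmR : (1 : ℝ) ≤ (m : ℝ) := by exact_mod_cast hm1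
  have hm0 : (0 : ℝ) < (m : ℝ) := by linarith
  have : NeZero m := ⟨by omega⟩
  have hcard : Fintype.card (Fin k → Fin m) = m ^ k := by simp
  obtain ⟨M, hM1, hM2⟩ := h16_exists_median h
  rw [hcard] at hM1 hM2
  have hmk : 0 < m ^ k := pow_pos hm1 k
  have hAmne : (univ.filter fun a => h a ≤ M).Nonempty := by
    rw [← Finset.card_pos]
    omega
  have hApne : (univ.filter fun a => M ≤ h a).Nonempty := by
    rw [← Finset.card_pos]
    omega
  obtain ⟨Φm, hΦm0, hΦmnn, hΦmex, hΦmle⟩ := h16_near _ hAmne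
  obtain ⟨Φp, hΦp0, hΦpnn, hΦpex, hΦple⟩ := h16_near _ hApne
  have hnearm : ∀ x, ∃ a, Φm x = sqd x a ∧ ∀ y, Φm y ≤ sqd y a := by
    intro x
    obtain ⟨a, ha, hEq⟩ := hΦmex x
    exact ⟨a, hEq, fun y => hΦmle y a ha⟩
  have hnearp : ∀ x, ∃ a, Φp x = sqd x a ∧ ∀ y, Φp y ≤ sqd y a := by
    intro x
    obtain ⟨a, ha, hEq⟩ := hΦpex x
    exact ⟨a, hEq, fun y => hΦple y a ha⟩
  have hmom_m := hmo k m hk hkm _ hM1 Φm hΦm0 hnearm r hr1
  have hmom_p := hmo k m hk hkm _ hM2 Φp hΦp0 hnearp r hr1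
  rw [← hKr] at hmom_m hmom_p
  -- the distance to the median is controlled by the two distance functions
  have hsq : ∀ x, (h x - M) ^ 2 ≤ Lam2 * (Φm x + Φp x) := by
    intro x
    rcases le_or_gt (h x) M with hx | hx
    · obtain ⟨a, ha, hEq⟩ := hΦpex x
      have haM : M ≤ h a := (mem_filter.mp ha).2
      have h1 : (h x - M) ^ 2 ≤ (h x - h a) ^ 2 := by
        nlinarith [mul_nonneg (sub_nonneg.mpr haM) (by linarith : 0 ≤ h a + M - 2 * h x)]
      have h2 := hlip x a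
      have h3 : Lam2 * sqd x a ≤ Lam2 * (Φm x + Φp x) := by
        apply mul_le_mul_of_nonneg_left _ hLam
        rw [← hEq]
        linarith [hΦmnn x]
      linarith
    · obtain ⟨a, ha, hEq⟩ := hΦmex x
      have haM : h a ≤ M := (mem_filter.mp ha).2
      have h1 : (h x - M) ^ 2 ≤ (h x - h a) ^ 2 := by
        nlinarith [mul_nonneg (sub_nonneg.mpr haM) (by linarith : 0 ≤ 2 * h x - h a - M)]
      have h2 := hlip x a
      have h3 : Lam2 * sqd x a ≤ Lam2 * (Φm x + Φp x) := by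
        apply mul_le_mul_of_nonneg_left _ hLam
        rw [← hEq]
        linarith [hΦpnn x]
      linarith
  have hk0 : (0 : ℝ) ≤ (k : ℝ) := Nat.cast_nonneg k
  have hm4 : (0 : ℝ) < (m : ℝ) ^ (4 * r) := by positivity
  -- pointwise moment bound
  have hpt : ∀ x, |h x - M| ^ q ≤ Lam2 ^ (q / 2) * (m : ℝ) ^ q *
      (1 + 2 ^ (2 * r) * ((Φm x + k) ^ (2 * r) + (Φp x + k) ^ (2 * r)) / (m : ℝ) ^ (4 * r)) := by
    intro x
    obtain ⟨S, hS⟩ : ∃ S : ℝ, S = Φm x + Φp x := ⟨_, rfl⟩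
    have hS0 : 0 ≤ S := by
      rw [hS]
      exact add_nonneg (hΦmnn x) (hΦpnn x)
    obtain ⟨t, ht⟩ : ∃ t : ℝ, t = S / (m : ℝ) ^ 2 := ⟨_, rfl⟩
    have ht0 : 0 ≤ t := by
      rw [ht]
      positivity
    have e1 : |h x - M| ^ q = ((h x - M) ^ 2) ^ (q / 2) := by
      rw [← sq_abs, ← Real.rpow_two, ← Real.rpow_mul (abs_nonneg _)]
      congr 1
      ring
    have e2 : ((h x - M) ^ 2) ^ (q / 2) ≤ (Lam2 * S) ^ (q / 2) := by
      apply Real.rpow_le_rpow (sq_nonneg _) _ (by positivity)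
      rw [hS]
      exact hsq x
    have hSt : S = (m : ℝ) ^ (2 : ℝ) * t := by
      rw [ht, Real.rpow_two]
      field_simp
    have e3 : (Lam2 * S) ^ (q / 2) = Lam2 ^ (q / 2) * ((m : ℝ) ^ q * t ^ (q / 2)) := by
      rw [Real.mul_rpow hLam hS0]
      congr 1
      rw [hSt, Real.mul_rpow (by positivity) ht0, ← Real.rpow_mul hm0.le]
      congr 2
      ring
    have e4 : t ^ (q / 2) ≤ 1 + t ^ (2 * r) := by
      have h2 : 0 ≤ t ^ (2 * r) := pow_nonneg ht0 _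
      rcases le_total t 1 with h1 | h1
      · have h3 := Real.rpow_le_one ht0 h1 (by positivity : 0 ≤ q / 2)
        linarith
      · have h3 : t ^ (q / 2) ≤ t ^ (((2 * r : ℕ)) : ℝ) := by
          apply Real.rpow_le_rpow_of_exponent_le h1
          push_cast
          linarith
        rw [Real.rpow_natCast] at h3
        linarith
    have e5 : t ^ (2 * r) ≤
        2 ^ (2 * r) * ((Φm x + k) ^ (2 * r) + (Φp x + k) ^ (2 * r)) / (m : ℝ) ^ (4 * r) := by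
      have h1 : S ≤ (Φm x + k) + (Φp x + k) := by
        rw [hS]
        linarith
      have h2 : S ^ (2 * r) ≤ ((Φm x + k) + (Φp x + k)) ^ (2 * r) := pow_le_pow_left₀ hS0 h1 _
      have h3 := h16_add_pow_le (Φm x + k) (Φp x + k) (by linarith [hΦmnn x])
        (by linarith [hΦpnn x]) (2 * r)
      have h4 : t ^ (2 * r) = S ^ (2 * r) / (m : ℝ) ^ (4 * r) := by
        rw [ht, div_pow, ← pow_mul]
        congr 2
        ring
      rw [h4]
      apply div_le_div_of_nonneg_right _ hm4.le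
      linarith
    calc |h x - M| ^ q = ((h x - M) ^ 2) ^ (q / 2) := e1
      _ ≤ (Lam2 * S) ^ (q / 2) := e2
      _ = Lam2 ^ (q / 2) * ((m : ℝ) ^ q * t ^ (q / 2)) := e3
      _ ≤ Lam2 ^ (q / 2) * ((m : ℝ) ^ q * (1 + 2 ^ (2 * r) *
            ((Φm x + k) ^ (2 * r) + (Φp x + k) ^ (2 * r)) / (m : ℝ) ^ (4 * r))) := by
          apply mul_le_mul_of_nonneg_left _ (by positivity)
          apply mul_le_mul_of_nonneg_left _ (by positivity)
          linarith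
      _ = Lam2 ^ (q / 2) * (m : ℝ) ^ q * (1 + 2 ^ (2 * r) *
            ((Φm x + k) ^ (2 * r) + (Φp x + k) ^ (2 * r)) / (m : ℝ) ^ (4 * r)) := by ring
  have hsumeq : ∑ x, Lam2 ^ (q / 2) * (m : ℝ) ^ q *
        (1 + 2 ^ (2 * r) * ((Φm x + k) ^ (2 * r) + (Φp x + k) ^ (2 * r)) / (m : ℝ) ^ (4 * r))
      = Lam2 ^ (q / 2) * (m : ℝ) ^ q * ((m : ℝ) ^ k + 2 ^ (2 * r) *
        (∑ x, (Φm x + k) ^ (2 * r) + ∑ x, (Φp x + k) ^ (2 * r)) / (m : ℝ) ^ (4 * r)) := by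
    rw [← Finset.mul_sum]
    congr 1
    rw [Finset.sum_add_distrib, Finset.sum_const, Finset.card_univ, hcard, nsmul_eq_mul, mul_one,
      ← Finset.sum_div, ← Finset.mul_sum, Finset.sum_add_distrib, Nat.cast_pow]
  have hSm : ∑ x, |h x - M| ^ q ≤
      Lam2 ^ (q / 2) * (m : ℝ) ^ q * ((1 + 2 ^ (2 * r + 1) * Kr) * (m : ℝ) ^ k) := by
    calc ∑ x, |h x - M| ^ q
        ≤ ∑ x, Lam2 ^ (q / 2) * (m : ℝ) ^ q *
            (1 + 2 ^ (2 * r) * ((Φm x + k) ^ (2 * r) + (Φp x + k) ^ (2 * r)) /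
              (m : ℝ) ^ (4 * r)) :=
          Finset.sum_le_sum fun x _ => hpt x
      _ = Lam2 ^ (q / 2) * (m : ℝ) ^ q * ((m : ℝ) ^ k + 2 ^ (2 * r) *
            (∑ x, (Φm x + k) ^ (2 * r) + ∑ x, (Φp x + k) ^ (2 * r)) / (m : ℝ) ^ (4 * r)) :=
          hsumeq
      _ ≤ Lam2 ^ (q / 2) * (m : ℝ) ^ q * ((m : ℝ) ^ k + 2 ^ (2 * r) *
            (Kr * (m : ℝ) ^ (4 * r) * (m : ℝ) ^ k + Kr * (m : ℝ) ^ (4 * r) * (m : ℝ) ^ k) /
              (m : ℝ) ^ (4 * r)) := by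
          apply mul_le_mul_of_nonneg_left _ (by positivity)
          apply add_le_add le_rfl
          apply div_le_div_of_nonneg_right _ hm4.le
          apply mul_le_mul_of_nonneg_left _ (by positivity)
          exact add_le_add hmom_m hmom_p
      _ = Lam2 ^ (q / 2) * (m : ℝ) ^ q * ((1 + 2 ^ (2 * r + 1) * Kr) * (m : ℝ) ^ k) := by
          rw [pow_succ]
          field_simp
          ring
  have hpair : ∀ a b, |h a - h b| ^ q ≤ 2 ^ (q - 1) * (|h a - M| ^ q + |h b - M| ^ q) := by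
    intro a b
    have h1 : |h a - h b| ≤ |h a - M| + |h b - M| := by
      have h0 := abs_sub_le (h a) M (h b)
      rw [abs_sub_comm M (h b)] at h0
      exact h0
    calc |h a - h b| ^ q ≤ (|h a - M| + |h b - M|) ^ q :=
          Real.rpow_le_rpow (abs_nonneg _) h1 hq0.le
      _ ≤ 2 ^ (q - 1) * (|h a - M| ^ q + |h b - M| ^ q) :=
          h16_add_rpow_le _ _ (abs_nonneg _) (abs_nonneg _) q (by linarith)
  obtain ⟨Sm, hSmdef⟩ : ∃ Sm : ℝ, Sm = ∑ a, |h a - M| ^ q := ⟨_, rfl⟩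
  rw [← hSmdef] at hSm
  have hinner : ∀ a, ∑ b, (2 ^ (q - 1) * (|h a - M| ^ q + |h b - M| ^ q)) =
      2 ^ (q - 1) * ((m : ℝ) ^ k * |h a - M| ^ q + Sm) := by
    intro a
    rw [← Finset.mul_sum, Finset.sum_add_distrib, Finset.sum_const, Finset.card_univ, hcard,
      nsmul_eq_mul, Nat.cast_pow, hSmdef]
  have hdouble : ∑ a, ∑ b, (2 ^ (q - 1) * (|h a - M| ^ q + |h b - M| ^ q)) =
      2 ^ (q - 1) * (2 * (m : ℝ) ^ k * Sm) := by
    rw [Finset.sum_congr rfl fun a _ => hinner a, ← Finset.mul_sum, Finset.sum_add_distrib,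
      ← Finset.mul_sum, Finset.sum_const, Finset.card_univ, hcard, nsmul_eq_mul, Nat.cast_pow,
      ← hSmdef]
    ring
  have h2q : (2 : ℝ) ^ (q - 1) * 2 = 2 ^ q := by
    rw [← Real.rpow_add_one (by norm_num : (2 : ℝ) ≠ 0) (q - 1), sub_add_cancel]
  calc ∑ x, ∑ y, |h x - h y| ^ q
      ≤ ∑ a, ∑ b, (2 ^ (q - 1) * (|h a - M| ^ q + |h b - M| ^ q)) :=
        Finset.sum_le_sum fun a _ => Finset.sum_le_sum fun b _ => hpair a b
    _ = 2 ^ (q - 1) * (2 * (m : ℝ) ^ k * Sm) := hdouble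
    _ ≤ 2 ^ (q - 1) * (2 * (m : ℝ) ^ k * (Lam2 ^ (q / 2) * (m : ℝ) ^ q *
          ((1 + 2 ^ (2 * r + 1) * Kr) * (m : ℝ) ^ k))) :=
        mul_le_mul_of_nonneg_left (mul_le_mul_of_nonneg_left hSm (by positivity))
          (by positivity)
    _ = 2 ^ q * (1 + 2 ^ (2 * r + 1) * Kr) * Lam2 ^ (q / 2) * (m : ℝ) ^ q *
          (m : ℝ) ^ (2 * k) := by
        rw [← h2q]
        ring

end Vale.Agent.Lib.P249.H16g
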