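import Mathlib

namespace Vale.Agent.Lib.P249.H16

/-- One-sided mean value bound for real powers: for `0 ≤ b ≤ a`, `1 ≤ p`,
`a ^ p - b ^ p ≤ p * a ^ (p - 1) * (a - b)`. -/
theorem rpow_sub_rpow_le_of_le {p : ℝ} (hp : 1 ≤ p) {a b : ℝ} (hb : 0 ≤ b) (hba : b ≤ a) :
    a ^ p - b ^ p ≤ p * a ^ (p - 1) * (a - b) := by
  have ha : 0 ≤ a := hb.trans hba
  rcases ha.eq_or_lt with h0 | hapos
  · have hb0 : b = 0 := le_antisymm (h0 ▸ hba) hb
    subst hb0
    rw [← h0]
    simp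
  · have hs : (-1 : ℝ) ≤ b / a - 1 := by
      have : 0 ≤ b / a := div_nonneg hb ha
      linarith
    have hbern := one_add_mul_self_le_rpow_one_add hs hp
    have e1 : (1 : ℝ) + (b / a - 1) = b / a := by ring
    rw [e1, Real.div_rpow hb ha] at hbern
    have hap : 0 < a ^ p := Real.rpow_pos_of_pos hapos p
    have h2 : a ^ p * (1 + p * (b / a - 1)) ≤ b ^ p := by
      have := mul_le_mul_of_nonneg_left hbern hap.le
      rwa [mul_div_cancel₀ _ hap.ne'] at this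
    have e2 : a ^ (p - 1) = a ^ p / a := Real.rpow_sub_one hapos.ne' p
    have e3 : p * a ^ (p - 1) * (a - b) = a ^ p - a ^ p * (1 + p * (b / a - 1)) := by
      rw [e2]
      field_simp
      ring
    rw [e3]
    linarith

/-- Mean value bound for real powers on `[0, R]`: `|a ^ p - b ^ p| ≤ p * R ^ (p - 1) * |a - b|`. -/
theorem abs_rpow_sub_rpow_le {p : ℝ} (hp : 1 ≤ p) {a b R : ℝ} (ha : 0 ≤ a) (hb : 0 ≤ b)
    (haR : a ≤ R) (hbR : b ≤ R) : |a ^ p - b ^ p| ≤ p * R ^ (p - 1) * |a - b| := by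
  have hp0 : 0 ≤ p := by linarith
  have hp1 : 0 ≤ p - 1 := by linarith
  rcases le_total b a with hba | hab
  · have h1 := rpow_sub_rpow_le_of_le hp hb hba
    have h2 : a ^ (p - 1) ≤ R ^ (p - 1) := Real.rpow_le_rpow ha haR hp1
    have h3 : 0 ≤ a ^ p - b ^ p := sub_nonneg.2 (Real.rpow_le_rpow hb hba hp0)
    rw [abs_of_nonneg h3, abs_of_nonneg (sub_nonneg.2 hba)]
    calc a ^ p - b ^ p ≤ p * a ^ (p - 1) * (a - b) := h1
      _ ≤ p * R ^ (p - 1) * (a - b) := by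
          apply mul_le_mul_of_nonneg_right _ (sub_nonneg.2 hba)
          exact mul_le_mul_of_nonneg_left h2 hp0
  · have h1 := rpow_sub_rpow_le_of_le hp ha hab
    have h2 : b ^ (p - 1) ≤ R ^ (p - 1) := Real.rpow_le_rpow hb hbR hp1
    have h3 : a ^ p - b ^ p ≤ 0 := sub_nonpos.2 (Real.rpow_le_rpow ha hab hp0)
    rw [abs_of_nonpos h3, abs_of_nonpos (sub_nonpos.2 hab)]
    calc -(a ^ p - b ^ p) = b ^ p - a ^ p := by ring
      _ ≤ p * b ^ (p - 1) * (b - a) := h1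
      _ ≤ p * R ^ (p - 1) * (b - a) := by
          apply mul_le_mul_of_nonneg_right _ (sub_nonneg.2 hab)
          exact mul_le_mul_of_nonneg_left h2 hp0
      _ = p * R ^ (p - 1) * -(a - b) := by ring

end Vale.Agent.Lib.P249.H16
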