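import Mathlib
import Vale.Agent.Lib.P249.helper21.LpApprox

/-!
# P249: simple functions of `L_p(μ)` with a dominating function

`simple_dom`: finitely many simple functions of `L_p(μ)` that are dominated almost everywhere by
one function `h` with `‖h‖_p ≤ K` become points of some `ℝ^m` with the same pairwise `p`-distances
and a coordinatewise bound `M` whose `p`-th power sum is at most `K ^ p`.
-/

open MeasureTheory

namespace Vale.Agent.Lib.P249.H16

open Vale.Agent.Lib.P249.H21Lp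

theorem simple_dom {α : Type*} [MeasurableSpace α] (μ : Measure α) (p : ENNReal) [Fact (1 ≤ p)]
    (hp : p ≠ ⊤) (n : ℕ) (s : Fin n → Lp.simpleFunc ℝ p μ) (h : α → ℝ)
    (hh : ∀ i, ∀ᵐ a ∂μ, |(s i : Lp ℝ p μ) a| ≤ h a) (K : ℝ) (hK0 : 0 ≤ K)
    (hK : eLpNorm h p μ ≤ ENNReal.ofReal K) :
    ∃ (m : ℕ) (x : Fin n → Fin m → ℝ) (M : Fin m → ℝ),
      (∀ i k, |x i k| ≤ M k) ∧ ∑ k, M k ^ p.toReal ≤ K ^ p.toReal ∧
      ∀ i j, ∑ k, |x i k - x j k| ^ p.toReal =
        dist (s i : Lp ℝ p μ) (s j : Lp ℝ p μ) ^ p.toReal := by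
  classical
  have hp1 : (1 : ENNReal) ≤ p := Fact.out
  have hp0 : p ≠ 0 := (lt_of_lt_of_le zero_lt_one hp1).ne'
  have hq1 : 1 ≤ p.toReal := by
    have := ENNReal.toReal_mono hp hp1
    simpa using this
  have hq0 : 0 < p.toReal := by linarith
  let G : Fin n → SimpleFunc α ℝ := fun i => Lp.simpleFunc.toSimpleFunc (s i)
  let J : SimpleFunc α (Fin n → ℝ) := joint G
  let w : (Fin n → ℝ) → ℝ := fun c => if (∃ i j, c i ≠ c j) then (μ (J ⁻¹' {c})).toReal else 0
  let B : (Fin n → ℝ) → NNReal := fun c => Finset.univ.sup (fun i => ‖c i‖₊)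
  have hw0 : ∀ c, 0 ≤ w c := by
    intro c
    simp only [w]
    split_ifs
    · exact ENNReal.toReal_nonneg
    · exact le_rfl
  have hfin : ∀ c : Fin n → ℝ, (∃ i j, c i ≠ c j) → μ (J ⁻¹' {c}) < ⊤ := by
    rintro c ⟨i, j, hij⟩
    have hmem : MemLp (⇑(G i - G j)) p μ :=
      (Lp.simpleFunc.memLp (s i)).sub (Lp.simpleFunc.memLp (s j))
    have hlt := SimpleFunc.measure_preimage_lt_top_of_memLp hp0 hp (G i - G j) hmem
      (c i - c j) (sub_ne_zero.mpr hij)
    refine lt_of_le_of_lt (measure_mono ?_) hlt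
    intro a ha
    simp only [Set.mem_preimage, Set.mem_singleton_iff] at ha ⊢
    rw [SimpleFunc.sub_apply, ← ha]
    rfl
  have key : ∀ i j, dist (s i : Lp ℝ p μ) (s j : Lp ℝ p μ) =
      (∑ c ∈ J.range, w c * |c i - c j| ^ p.toReal) ^ (1 / p.toReal) := by
    intro i j
    rw [Lp.dist_def]
    have hae : (⇑(s i : Lp ℝ p μ) - ⇑(s j : Lp ℝ p μ)) =ᵐ[μ] fun a => G i a - G j a := by
      filter_upwards [Lp.simpleFunc.toSimpleFunc_eq_toFun (s i),
        Lp.simpleFunc.toSimpleFunc_eq_toFun (s j)] with a ha hb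
      simp only [Pi.sub_apply, G]
      rw [ha, hb]
    rw [eLpNorm_congr_ae hae, eLpNorm_eq_lintegral_rpow_enorm_toReal hp0 hp]
    have h1 : (fun a => ‖G i a - G j a‖ₑ ^ p.toReal) =
        (J.map (fun c => ‖c i - c j‖ₑ ^ p.toReal) : α → ENNReal) := by
      ext a
      rfl
    rw [h1, SimpleFunc.lintegral_eq_lintegral, SimpleFunc.map_lintegral]
    have h2 : ∀ c ∈ J.range, ‖c i - c j‖ₑ ^ p.toReal * μ (J ⁻¹' {c}) =
        ENNReal.ofReal (w c * |c i - c j| ^ p.toReal) := by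
      intro c _
      by_cases hij : c i = c j
      · simp [hij, hq0, hq0.ne']
      · have hw : w c = (μ (J ⁻¹' {c})).toReal := if_pos ⟨i, j, hij⟩
        rw [hw, ENNReal.ofReal_mul ENNReal.toReal_nonneg,
          ENNReal.ofReal_toReal (hfin c ⟨i, j, hij⟩).ne, mul_comm]
        congr 1
        rw [← Real.norm_eq_abs, ← ofReal_norm,
          ENNReal.ofReal_rpow_of_nonneg (norm_nonneg _) hq0.le]
    rw [Finset.sum_congr rfl h2, ← ENNReal.ofReal_sum_of_nonneg
      (fun c _ => mul_nonneg (hw0 c) (Real.rpow_nonneg (abs_nonneg _) _)),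
      ← ENNReal.toReal_rpow, ENNReal.toReal_ofReal
      (Finset.sum_nonneg fun c _ => mul_nonneg (hw0 c) (Real.rpow_nonneg (abs_nonneg _) _))]
  have hB : ∑ c ∈ J.range, w c * (B c : ℝ) ^ p.toReal ≤ K ^ p.toReal := by
    let φv : (Fin n → ℝ) → ENNReal := fun c =>
      if (∃ i j, c i ≠ c j) then ENNReal.ofReal ((B c : ℝ) ^ p.toReal) else 0
    have h1 : ∀ c ∈ J.range, φv c * μ (J ⁻¹' {c}) =
        ENNReal.ofReal (w c * (B c : ℝ) ^ p.toReal) := by
      intro c _
      by_cases hc : ∃ i j, c i ≠ c j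
      · have hw : w c = (μ (J ⁻¹' {c})).toReal := if_pos hc
        have hφ : φv c = ENNReal.ofReal ((B c : ℝ) ^ p.toReal) := if_pos hc
        rw [hw, hφ, ENNReal.ofReal_mul ENNReal.toReal_nonneg,
          ENNReal.ofReal_toReal (hfin c hc).ne, mul_comm]
      · have hw : w c = 0 := if_neg hc
        have hφ : φv c = 0 := if_neg hc
        rw [hw, hφ, zero_mul, zero_mul, ENNReal.ofReal_zero]
    have hall : ∀ᵐ a ∂μ, ∀ i, |G i a| ≤ h a := by
      rw [ae_all_iff]
      intro i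
      filter_upwards [hh i, Lp.simpleFunc.toSimpleFunc_eq_toFun (s i)] with a ha hb
      show |Lp.simpleFunc.toSimpleFunc (s i) a| ≤ h a
      rw [hb]
      exact ha
    have hae : ∀ᵐ a ∂μ, (J.map φv) a ≤ ‖h a‖ₑ ^ p.toReal := by
      filter_upwards [hall] with a ha
      show φv (J a) ≤ ‖h a‖ₑ ^ p.toReal
      by_cases hc : ∃ i j, J a i ≠ J a j
      · have hφ : φv (J a) = ENNReal.ofReal ((B (J a) : ℝ) ^ p.toReal) := if_pos hc
        rw [hφ]
        have hBle : (B (J a) : ℝ) ≤ ‖h a‖ := by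
          have h3 : B (J a) ≤ Real.toNNReal (h a) := by
            refine Finset.sup_le fun i _ => ?_
            refine NNReal.le_toNNReal_of_coe_le ?_
            rw [coe_nnnorm, Real.norm_eq_abs]
            exact ha i
          have h4 : (B (J a) : ℝ) ≤ (Real.toNNReal (h a) : ℝ) := by exact_mod_cast h3
          rw [Real.coe_toNNReal'] at h4
          rw [Real.norm_eq_abs]
          exact h4.trans (max_le (le_abs_self _) (abs_nonneg _))
        calc ENNReal.ofReal ((B (J a) : ℝ) ^ p.toReal)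
            ≤ ENNReal.ofReal (‖h a‖ ^ p.toReal) :=
              ENNReal.ofReal_le_ofReal (Real.rpow_le_rpow (NNReal.coe_nonneg _) hBle hq0.le)
          _ = ‖h a‖ₑ ^ p.toReal := by
              rw [← ENNReal.ofReal_rpow_of_nonneg (norm_nonneg _) hq0.le, ofReal_norm]
      · have hφ : φv (J a) = 0 := if_neg hc
        rw [hφ]
        exact bot_le
    have h2 : ∑ c ∈ J.range, φv c * μ (J ⁻¹' {c}) ≤ ENNReal.ofReal (K ^ p.toReal) := by
      rw [← SimpleFunc.map_lintegral, ← SimpleFunc.lintegral_eq_lintegral]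
      calc ∫⁻ a, (J.map φv) a ∂μ ≤ ∫⁻ a, ‖h a‖ₑ ^ p.toReal ∂μ := lintegral_mono_ae hae
        _ ≤ ENNReal.ofReal (K ^ p.toReal) := by
            have h5 := ENNReal.rpow_le_rpow hK hq0.le
            rw [eLpNorm_eq_lintegral_rpow_enorm_toReal hp0 hp, ← ENNReal.rpow_mul, one_div,
              inv_mul_cancel₀ hq0.ne', ENNReal.rpow_one,
              ENNReal.ofReal_rpow_of_nonneg hK0 hq0.le] at h5
            exact h5
    rw [Finset.sum_congr rfl h1, ← ENNReal.ofReal_sum_of_nonneg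
      (fun c _ => mul_nonneg (hw0 c) (Real.rpow_nonneg (NNReal.coe_nonneg _) _))] at h2
    exact (ENNReal.ofReal_le_ofReal_iff (Real.rpow_nonneg hK0 _)).1 h2
  let e : J.range ≃ Fin J.range.card := J.range.equivFin
  refine ⟨J.range.card, fun i l => (w (e.symm l).1) ^ (1 / p.toReal) * (e.symm l).1 i,
    fun l => (w (e.symm l).1) ^ (1 / p.toReal) * (B (e.symm l).1 : ℝ), ?_, ?_, ?_⟩
  · intro i l
    rw [abs_mul, abs_of_nonneg (Real.rpow_nonneg (hw0 _) _)]
    refine mul_le_mul_of_nonneg_left ?_ (Real.rpow_nonneg (hw0 _) _)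
    have h3 : ‖(e.symm l).1 i‖₊ ≤ B (e.symm l).1 :=
      Finset.le_sup (f := fun i => ‖(e.symm l).1 i‖₊) (Finset.mem_univ i)
    have h4 : ((‖(e.symm l).1 i‖₊ : NNReal) : ℝ) ≤ (B (e.symm l).1 : ℝ) := by exact_mod_cast h3
    rwa [coe_nnnorm, Real.norm_eq_abs] at h4
  · have h3 : ∑ k, ((w (e.symm k).1) ^ (1 / p.toReal) * (B (e.symm k).1 : ℝ)) ^ p.toReal
        = ∑ c ∈ J.range, w c * (B c : ℝ) ^ p.toReal := by
      rw [← Finset.sum_coe_sort J.range (fun c => w c * (B c : ℝ) ^ p.toReal),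
        ← Equiv.sum_comp e.symm]
      refine Finset.sum_congr rfl fun l _ => ?_
      rw [Real.mul_rpow (Real.rpow_nonneg (hw0 _) _) (NNReal.coe_nonneg _),
        ← Real.rpow_mul (hw0 _), one_div, inv_mul_cancel₀ hq0.ne', Real.rpow_one]
    rw [h3]
    exact hB
  · intro i j
    rw [key i j, ← Real.rpow_mul (Finset.sum_nonneg fun c _ =>
        mul_nonneg (hw0 c) (Real.rpow_nonneg (abs_nonneg _) _)),
      one_div, inv_mul_cancel₀ hq0.ne', Real.rpow_one,
      ← Finset.sum_coe_sort J.range (fun c => w c * |c i - c j| ^ p.toReal),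
      ← Equiv.sum_comp e.symm]
    refine Finset.sum_congr rfl fun l _ => ?_
    rw [← mul_sub, abs_mul, Real.mul_rpow (abs_nonneg _) (abs_nonneg _),
      abs_of_nonneg (Real.rpow_nonneg (hw0 _) _), ← Real.rpow_mul (hw0 _),
      inv_mul_cancel₀ hq0.ne', Real.rpow_one]

end Vale.Agent.Lib.P249.H16
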