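import Mathlib
import Vale.Agent.Lib.P249.helper72.IncompFin
import Vale.Agent.Lib.P249.helper16.SimpleDom
import Vale.Agent.Lib.P249.helper16.RpowMVT

/-!
# P249: dimension reduction for incompressible families of `L_p(μ)` (glue)

`incompressible`: if `f_1, …, f_n ∈ L_p(μ)` are dominated almost everywhere by one `g ∈ L_p(μ)`
with `‖g‖ ≤ K`, then for every `ε > 0` there are `d ≤ 170 (2K)^(2p) log n / ε²` and points
`y_1, …, y_n` of `ℓ_p^d` with `| ‖y_i - y_j‖^p - ‖f_i - f_j‖^p | ≤ ε` for all `i, j`.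
-/

open MeasureTheory

namespace Vale.Agent.Lib.P249.H16

theorem incompressible {α : Type*} [MeasurableSpace α] (μ : Measure α) (p : ENNReal)
    [Fact (1 ≤ p)] (hp : p ≠ ⊤) (n : ℕ) (f : Fin n → Lp ℝ p μ) (g : Lp ℝ p μ)
    (hfg : ∀ i, ∀ᵐ a ∂μ, |f i a| ≤ g a) (K : ℝ) (hK : ‖g‖ ≤ K) (ε : ℝ) (hε : 0 < ε) :
    ∃ (d : ℕ) (y : Fin n → PiLp p (fun _ : Fin d => ℝ)),
      (d : ℝ) ≤ 170 * (2 * K) ^ (2 * p.toReal) * Real.log n / ε ^ 2 ∧
      ∀ i j, |dist (y i) (y j) ^ p.toReal - dist (f i) (f j) ^ p.toReal| ≤ ε := by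
  classical
  have hp1 : (1 : ENNReal) ≤ p := Fact.out
  have hq1 : 1 ≤ p.toReal := by
    have := ENNReal.toReal_mono hp hp1
    simpa using this
  have hq0 : 0 < p.toReal := by linarith
  have hK0 : 0 ≤ K := (norm_nonneg g).trans hK
  have h2K0 : 0 ≤ 2 * K := by linarith
  have hfn : ∀ i, ‖f i‖ ≤ K := by
    intro i
    refine (Lp.norm_le_norm_of_ae_le ?_).trans hK
    filter_upwards [hfg i] with a ha
    rw [Real.norm_eq_abs, Real.norm_eq_abs]
    exact ha.trans (le_abs_self _)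
  have hdist : ∀ i j, dist (f i) (f j) ≤ 2 * K := by
    intro i j
    rw [dist_eq_norm]
    calc ‖f i - f j‖ ≤ ‖f i‖ + ‖f j‖ := norm_sub_le _ _
      _ ≤ 2 * K := by linarith [hfn i, hfn j]
  have hlog : 0 ≤ Real.log n := Real.log_natCast_nonneg n
  have hbound0 : 0 ≤ 170 * (2 * K) ^ (2 * p.toReal) * Real.log n / ε ^ 2 :=
    div_nonneg (mul_nonneg (mul_nonneg (by norm_num) (Real.rpow_nonneg h2K0 _)) hlog)
      (sq_nonneg ε)
  -- the trivial cases
  by_cases htriv : n ≤ 1 ∨ (2 * K) ^ p.toReal ≤ ε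
  · refine ⟨0, fun _ => 0, by simpa using hbound0, fun i j => ?_⟩
    rw [dist_self, Real.zero_rpow hq0.ne', zero_sub, abs_neg,
      abs_of_nonneg (Real.rpow_nonneg dist_nonneg _)]
    rcases htriv with h1 | h2
    · have hij : i = j := by
        apply Fin.ext
        have hi := i.2
        have hj := j.2
        omega
      rw [hij, dist_self, Real.zero_rpow hq0.ne']
      exact hε.le
    · exact (Real.rpow_le_rpow dist_nonneg (hdist i j) hq0.le).trans h2
  rw [not_or, not_le, not_le] at htriv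
  obtain ⟨hn1, hεK⟩ := htriv
  have hn2 : 2 ≤ n := hn1
  have hnR : (2 : ℝ) ≤ (n : ℝ) := by exact_mod_cast hn2
  have hnpos : (0 : ℝ) < (n : ℝ) := by linarith
  have hKpos : 0 < K := by
    rcases hK0.eq_or_lt with h0 | h0
    · rw [← h0, mul_zero, Real.zero_rpow hq0.ne'] at hεK
      linarith
    · exact h0
  have h3K : 0 < (3 * K) ^ (p.toReal - 1) := Real.rpow_pos_of_pos (by linarith) _
  -- the approximation parameter
  obtain ⟨η, hη0, hη1, hη2⟩ : ∃ η : ℝ, 0 < η ∧ η ≤ K / (324 * p.toReal * n) ∧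
      η ≤ ε / (18 * p.toReal * (3 * K) ^ (p.toReal - 1)) :=
    ⟨min (K / (324 * p.toReal * n)) (ε / (18 * p.toReal * (3 * K) ^ (p.toReal - 1))),
      lt_min (by positivity) (by positivity), min_le_left _ _, min_le_right _ _⟩
  have hη1' : η * (324 * p.toReal * n) ≤ K := (le_div_iff₀ (by positivity)).1 hη1
  have hη2' : η * (18 * p.toReal * (3 * K) ^ (p.toReal - 1)) ≤ ε :=
    (le_div_iff₀ (by positivity)).1 hη2
  have hηK : 2 * η ≤ K := by
    have h1 : η * 2 ≤ η * (324 * p.toReal * n) := by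
      apply mul_le_mul_of_nonneg_left _ hη0.le
      nlinarith
    linarith
  -- simple approximants
  have hdense : ∀ F : Lp ℝ p μ, ∃ s : Lp.simpleFunc ℝ p μ, dist F (s : Lp ℝ p μ) < η := by
    intro F
    obtain ⟨s, hs⟩ := (Lp.simpleFunc.denseRange (E := ℝ) (μ := μ) hp).exists_dist_lt F hη0
    exact ⟨s, hs⟩
  choose s0 hs0 using hdense
  obtain ⟨s, hs⟩ : ∃ s : Fin n → Lp.simpleFunc ℝ p μ,
      ∀ i, dist (f i) (s i : Lp ℝ p μ) < η := ⟨fun i => s0 (f i), fun i => hs0 (f i)⟩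
  -- the dominating function
  obtain ⟨H, hHdef⟩ : ∃ H : Lp ℝ p μ, H = g + ∑ i, |(s i : Lp ℝ p μ) - f i| := ⟨_, rfl⟩
  have hHnorm : ‖H‖ ≤ K + n * η := by
    rw [hHdef]
    calc ‖g + ∑ i, |(s i : Lp ℝ p μ) - f i|‖
        ≤ ‖g‖ + ‖∑ i, |(s i : Lp ℝ p μ) - f i|‖ := norm_add_le _ _
      _ ≤ K + ∑ i, ‖|(s i : Lp ℝ p μ) - f i|‖ := add_le_add hK (norm_sum_le _ _)
      _ ≤ K + ∑ _i : Fin n, η := by
          refine add_le_add le_rfl (Finset.sum_le_sum fun i _ => ?_)
          rw [norm_abs_eq_norm, ← dist_eq_norm, dist_comm]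
          exact (hs i).le
      _ = K + n * η := by simp
  have hHdom : ∀ i, ∀ᵐ a ∂μ, |(s i : Lp ℝ p μ) a| ≤ H a := by
    intro i
    have hle : |(s i : Lp ℝ p μ)| ≤ H := by
      have h1 : |(s i : Lp ℝ p μ)| ≤ |f i| + |(s i : Lp ℝ p μ) - f i| := by
        have h := abs_add_le (f i) ((s i : Lp ℝ p μ) - f i)
        rwa [add_sub_cancel] at h
      have h2 : |f i| ≤ g := by
        rw [← Lp.coeFn_le]
        filter_upwards [Lp.coeFn_abs (f i), hfg i] with a ha hb
        rw [ha]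
        exact hb
      have h3 : |(s i : Lp ℝ p μ) - f i| ≤ ∑ j, |(s j : Lp ℝ p μ) - f j| :=
        Finset.single_le_sum (f := fun j => |(s j : Lp ℝ p μ) - f j|)
          (fun j _ => abs_nonneg _) (Finset.mem_univ i)
      rw [hHdef]
      exact h1.trans (add_le_add h2 h3)
    have hae := (Lp.coeFn_le _ _).2 hle
    filter_upwards [hae, Lp.coeFn_abs (s i : Lp ℝ p μ)] with a ha hb
    rw [← hb]
    exact ha
  have hK'0 : 0 ≤ K + n * η := by positivity
  have hHe : eLpNorm H p μ ≤ ENNReal.ofReal (K + n * η) := by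
    rw [← ENNReal.ofReal_toReal (Lp.eLpNorm_ne_top H), ← Lp.norm_def]
    exact ENNReal.ofReal_le_ofReal hHnorm
  -- to finite dimension, then sampling
  obtain ⟨m, x, M, hM, hMsum, hx⟩ := simple_dom μ p hp n s (⇑H) hHdom (K + n * η) hK'0 hHe
  have hε' : 8 * ε / 9 < (2 * (K + n * η)) ^ p.toReal := by
    have h1 : (2 * K) ^ p.toReal ≤ (2 * (K + n * η)) ^ p.toReal :=
      Real.rpow_le_rpow h2K0 (by nlinarith [mul_nonneg hnpos.le hη0.le]) hq0.le
    linarith
  obtain ⟨d, y', hd, hy'⟩ := Vale.Agent.Lib.P249.H72.incomp_fin p.toReal hq1 m n hn2 x M hM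
    (K + n * η) hK'0 hMsum (8 * ε / 9) (by positivity) hε'
  have hyd : ∀ i j, dist (WithLp.toLp p (y' i)) (WithLp.toLp p (y' j)) ^ p.toReal =
      ∑ l, |y' i l - y' j l| ^ p.toReal := by
    intro i j
    rw [PiLp.dist_eq_sum hq0, ← Real.rpow_mul
      (Finset.sum_nonneg fun l _ => Real.rpow_nonneg dist_nonneg _), one_div,
      inv_mul_cancel₀ hq0.ne', Real.rpow_one]
    rfl
  refine ⟨d, fun i => WithLp.toLp p (y' i), ?_, fun i j => ?_⟩
  · -- the dimension bound
    have hL : (1 : ℝ) / 6 ≤ Real.log n := by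
      have h1 : Real.log 2 ≤ Real.log n := Real.log_le_log (by norm_num) hnR
      have h2 := Real.log_two_gt_d9
      linarith
    have hX : (2 * K) ^ (2 * p.toReal) = ((2 * K) ^ p.toReal) ^ 2 := by
      rw [← Real.rpow_natCast, ← Real.rpow_mul h2K0]
      congr 1
      push_cast
      ring
    have hXε : ε ^ 2 ≤ (2 * K) ^ (2 * p.toReal) := by
      rw [hX]
      exact pow_le_pow_left₀ hε.le hεK.le 2
    have hX0 : 0 ≤ (2 * K) ^ (2 * p.toReal) := Real.rpow_nonneg h2K0 _
    have ht0 : 0 ≤ n * η / K := by positivity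
    have ht : n * η / K ≤ 1 / (324 * p.toReal) := by
      rw [div_le_div_iff₀ hKpos (by positivity)]
      linarith
    have h1 : (1 + n * η / K) ^ (2 * p.toReal) ≤ 82 / 81 := by
      have e : 1 / (324 * p.toReal) * (2 * p.toReal) = 1 / 162 := by
        field_simp
        ring
      have h3 : n * η / K * (2 * p.toReal) ≤ 1 / 162 := by
        rw [← e]
        exact mul_le_mul_of_nonneg_right ht (by positivity)
      have h4 : Real.exp (1 / 162) ≤ 82 / 81 := by
        have h := Real.one_sub_le_exp_neg (1 / 162)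
        rw [Real.exp_neg] at h
        have hpos := Real.exp_pos (1 / 162 : ℝ)
        have h5 := mul_le_mul_of_nonneg_right h hpos.le
        rw [inv_mul_cancel₀ hpos.ne'] at h5
        linarith
      calc (1 + n * η / K) ^ (2 * p.toReal)
          ≤ (Real.exp (n * η / K)) ^ (2 * p.toReal) :=
            Real.rpow_le_rpow (by positivity)
              (by linarith [Real.add_one_le_exp (n * η / K)]) (by positivity)
        _ = Real.exp (n * η / K * (2 * p.toReal)) := (Real.exp_mul _ _).symm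
        _ ≤ Real.exp (1 / 162) := Real.exp_le_exp.2 h3
        _ ≤ 82 / 81 := h4
    have hKK : 2 * (K + n * η) = (2 * K) * (1 + n * η / K) := by
      field_simp
    have h2 : (2 * (K + n * η)) ^ (2 * p.toReal) ≤ 82 / 81 * (2 * K) ^ (2 * p.toReal) := by
      rw [hKK, Real.mul_rpow h2K0 (by positivity), mul_comm]
      exact mul_le_mul_of_nonneg_right h1 hX0
    have hZ : (1 : ℝ) / 6 ≤ (2 * K) ^ (2 * p.toReal) * Real.log n / ε ^ 2 := by
      rw [le_div_iff₀ (by positivity)]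
      nlinarith
    have h3 : 128 * (2 * (K + n * η)) ^ (2 * p.toReal) * Real.log n / (8 * ε / 9) ^ 2 ≤
        164 * ((2 * K) ^ (2 * p.toReal) * Real.log n / ε ^ 2) := by
      have e : 164 * ((2 * K) ^ (2 * p.toReal) * Real.log n / ε ^ 2) =
          128 * (82 / 81 * (2 * K) ^ (2 * p.toReal)) * Real.log n / (8 * ε / 9) ^ 2 := by
        field_simp
        ring
      rw [e]
      apply div_le_div_of_nonneg_right _ (by positivity)
      apply mul_le_mul_of_nonneg_right _ hlog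
      exact mul_le_mul_of_nonneg_left h2 (by norm_num)
    have e2 : 170 * (2 * K) ^ (2 * p.toReal) * Real.log n / ε ^ 2 =
        170 * ((2 * K) ^ (2 * p.toReal) * Real.log n / ε ^ 2) := by ring
    rw [e2]
    linarith
  · -- the error bound
    have hs3 : dist (s i : Lp ℝ p μ) (s j : Lp ℝ p μ) ≤ 3 * K := by
      have h1 : dist (s i : Lp ℝ p μ) (s j : Lp ℝ p μ) ≤
          dist (s i : Lp ℝ p μ) (f i) + dist (f i) (f j) + dist (f j) (s j : Lp ℝ p μ) :=
        dist_triangle4 _ _ _ _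
      have h2 := hs i
      have h3 := hs j
      rw [dist_comm] at h2
      linarith [hdist i j]
    have hf3 : dist (f i) (f j) ≤ 3 * K := by linarith [hdist i j]
    have hmv := abs_rpow_sub_rpow_le hq1 (dist_nonneg (x := (s i : Lp ℝ p μ)) (y := (s j : Lp ℝ p μ)))
      (dist_nonneg (x := f i) (y := f j)) hs3 hf3
    have hdd : |dist (s i : Lp ℝ p μ) (s j : Lp ℝ p μ) - dist (f i) (f j)| ≤ 2 * η := by
      have h1 := dist_dist_dist_le (s i : Lp ℝ p μ) (s j : Lp ℝ p μ) (f i) (f j)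
      rw [Real.dist_eq] at h1
      have h2 := hs i
      have h3 := hs j
      rw [dist_comm] at h2 h3
      linarith
    have hB : |dist (s i : Lp ℝ p μ) (s j : Lp ℝ p μ) ^ p.toReal -
        dist (f i) (f j) ^ p.toReal| ≤ ε / 9 := by
      have hc : 0 ≤ p.toReal * (3 * K) ^ (p.toReal - 1) := by positivity
      calc |dist (s i : Lp ℝ p μ) (s j : Lp ℝ p μ) ^ p.toReal - dist (f i) (f j) ^ p.toReal|
          ≤ p.toReal * (3 * K) ^ (p.toReal - 1) *
              |dist (s i : Lp ℝ p μ) (s j : Lp ℝ p μ) - dist (f i) (f j)| := hmv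
        _ ≤ p.toReal * (3 * K) ^ (p.toReal - 1) * (2 * η) :=
            mul_le_mul_of_nonneg_left hdd hc
        _ ≤ ε / 9 := by linarith
    have hA := hy' i j
    rw [hx i j, ← hyd i j] at hA
    calc |dist (WithLp.toLp p (y' i)) (WithLp.toLp p (y' j)) ^ p.toReal -
          dist (f i) (f j) ^ p.toReal|
        = |(dist (WithLp.toLp p (y' i)) (WithLp.toLp p (y' j)) ^ p.toReal -
            dist (s i : Lp ℝ p μ) (s j : Lp ℝ p μ) ^ p.toReal) +
          (dist (s i : Lp ℝ p μ) (s j : Lp ℝ p μ) ^ p.toReal -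
            dist (f i) (f j) ^ p.toReal)| := by
          congr 1
          ring
      _ ≤ 8 * ε / 9 + ε / 9 := (abs_add_le _ _).trans (add_le_add hA hB)
      _ = ε := by ring

end Vale.Agent.Lib.P249.H16
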